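import Vale.Agent.P344.Main

open Filter Vale.Agent.P344

theorem Vale.Agent.Results.P344.BelowNLogN.result :
    (∃ C : ℝ, ∀ n : ℕ, 2 ≤ n →
      (∃ (p : List Gate) (out : Fin n → ℕ), ComputesDFT n p out ∧ p.length = L n) ∧
        (L n : ℝ) ≤ C * n * Real.logb 2 n ^ (1 - 4 / 10 ^ 8 : ℝ)) ∧
    ¬ ∃ c : ℝ, 0 < c ∧ ∀ᶠ n : ℕ in atTop, c * n * Real.logb 2 n ≤ L n :=
  ⟨L_bound, not_lower⟩
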